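import Mathlib
import Crest.Agent.N265.Br.Rat
import Crest.Agent.R013.CE5_280

/-!
# Row 265, divisibility, part 1 (helper1): chains of curves

On a smooth projective surface with `H¹(O) = 0` any two closed points are joined by a chain of
curves (`conn`): the hyperplane section is connected and meets every curve.
-/

set_option autoImplicit false
set_option linter.unusedSectionVars false
set_option linter.style.haveILetI false

open AlgebraicGeometry CategoryTheory Order TopologicalSpace Topology Filter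
open Crest.AlgGeometry.Prelude
open Crest.Agent.R274.Br179
open Crest.Agent.R013.RR7_948 Crest.Agent.R013.RR9_948 Crest.Agent.R013.RR11_948
open Crest.Agent.N265.Br

namespace Crest.Agent.N265.Div

universe u

noncomputable section

variable {k : Type u} [Field k] [IsAlgClosed k] [CharZero k] {V : SmPr k 2}

local notation "𝐖" => SmPr.toIntegralKScheme V

theorem const_van {y : V.X} {c : k} (h : algebraMap k V.FnField c ∈ van y) : c = 0 := by
  by_contra hc0
  have h6 := mul_mem_van (const_mem_loc 𝐖 y c⁻¹) h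
  rw [← map_mul, inv_mul_cancel₀ hc0, map_one] at h6
  exact one_notMem_van y h6

/-- functions regular along a complete curve are constant on it -/
theorem const_on {ξ : V.X} (hξ : coheight ξ = 1) {f : V.FnField}
    (hf : ∀ y, ξ ⤳ y → f ∈ loc y) : ∃ c : k, f - algebraMap k V.FnField c ∈ van ξ := by
  obtain ⟨_, _, _, _⟩ := exists_ctx hξ
  have hfξ := hf ξ specializes_rfl
  have h1 : E (W := 𝐖) ξ f ∈ LD (0 : Pl k (V.ResField ξ) →₀ ℤ) := by
    rw [mem_LD]
    intro P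
    have h2 := cen_ctr P
    simpa using h2.2.2 f (hf _ h2.1)
  rw [LD_zero Crest.Agent.R013.CE5_280.algebraicClosure_eq_bot, Submodule.mem_one] at h1
  obtain ⟨c, hc⟩ := h1
  refine ⟨c, ?_⟩
  rw [← E_eq_zero (sub_mem hfξ (const_mem_loc _ ξ c)), E_sub hfξ (const_mem_loc _ ξ c), E_const,
    hc, sub_self]

/-- a complete curve leaves every affine open set -/
theorem exists_out {ξ : V.X} (hξ : coheight ξ = 1) {U : V.X.Opens} (hU : IsAffineOpen U) :
    ∃ y, ξ ⤳ y ∧ y ∉ U := by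
  by_contra hcon
  push Not at hcon
  refine not_isClosed hξ (isClosed_of_const (W := 𝐖) fun f hf => ?_)
  obtain ⟨g, hg, s, hs, hsx, hfs⟩ :=
    Crest.Agent.R270.Dic327.exists_frac hU (hcon ξ specializes_rfl) hf
  obtain ⟨a, ha⟩ := const_on hξ (f := g) fun y hy => mem_reg.1 hg y (hcon y hy)
  obtain ⟨b, hb⟩ := const_on hξ (f := s) fun y hy => mem_reg.1 hs y (hcon y hy)
  have hb0 : b ≠ 0 := by
    rintro rfl
    rw [map_zero, sub_zero] at hb
    exact hsx hb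
  refine ⟨a / b, ?_⟩
  have h1 := mul_mem_van (const_mem_loc 𝐖 ξ b⁻¹) (add_mem_van ha (mul_mem_van (neg_mem hf) hb))
  have h2 : algebraMap k V.FnField b ≠ 0 := (map_ne_zero _).2 hb0
  convert h1 using 1
  rw [← hfs, map_div₀, map_inv₀]
  field_simp
  ring

/-- every closed point lies on a curve -/
theorem exists_curve {x : V.X} (hx : IsClosed ({x} : Set V.X)) :
    ∃ ξ : V.X, coheight ξ = 1 ∧ ξ ⤳ x ∧ x ≠ ξ := by
  have hne : x ≠ genericPoint V.X := by
    intro h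
    have h1 := coheight_closed V hx
    have h3 : coheight x = 0 := by
      rw [h, Order.coheight_eq_zero]
      exact fun v _ => genericPoint_specializes v
    rw [h3] at h1
    norm_num at h1
  obtain ⟨s, hs, hs'⟩ := exists_van (genericPoint_specializes x) hne
  have hs0 := ne_zero_of_notMem_van hs'
  obtain ⟨z, hz, hz'⟩ := exists_ord_pos (W := 𝐖) hs hs0
  have h1 : coheight z = 1 := (IsWD.ord (V := 𝐖) hs0).codim z hz'.ne'
  exact ⟨z, h1, hz, fun h => not_isClosed h1 (h ▸ hx)⟩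

variable (V) in
/-- affine charts of an ample system -/
structure Charts (ι : Type) where
  /-- the charts -/
  U : ι → V.X.Opens
  /-- the homogeneous coordinates -/
  t : ι → V.FnField
  aff : ∀ i, IsAffineOpen (U i)
  gen : ∀ i, genericPoint V.X ∈ U i
  ne : ∀ i, t i ≠ 0
  cover : ∀ x, ∃ i, x ∈ U i
  mem : ∀ {i x}, x ∈ U i → ∀ j, t j / t i ∈ loc x
  van_iff : ∀ {i x}, x ∈ U i → ∀ j, t j / t i ∈ van x ↔ x ∉ U j

namespace Charts

variable {ι : Type} (C : Charts V ι)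

/-- a chart containing a point -/
def idx (z : V.X) : ι := (C.cover z).choose

theorem idx_spec (z : V.X) : z ∈ C.U (C.idx z) := (C.cover z).choose_spec

/-- the multiplicity of the hyperplane section `t i = 0` -/
def mu (i : ι) (z : V.X) : ℤ := Scheme.ord (X := V.X) (C.t i / C.t (C.idx z)) z

theorem ord_eq (i : ι) {l : ι} {z : V.X} (hz : z ∈ C.U l) :
    Scheme.ord (X := V.X) (C.t l / C.t i) z = - C.mu i z := by
  have h1 : Scheme.ord (X := V.X) (C.t l / C.t (C.idx z)) z = 0 :=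
    ord_eq_zero_of_notMem_van specializes_rfl (C.mem (C.idx_spec z) l)
      fun h => (C.van_iff (C.idx_spec z) l).1 h hz
  have h2 : C.t l / C.t (C.idx z) = (C.t l / C.t i) * (C.t i / C.t (C.idx z)) := by
    have := C.ne i
    field_simp
  rw [h2, Scheme.ord_mul (div_ne_zero (C.ne l) (C.ne i)) (div_ne_zero (C.ne i) (C.ne _))] at h1
  rw [mu]
  omega

theorem mu_pos {i : ι} {z : V.X} (hz : coheight z = 1) (h : z ∉ C.U i) : 1 ≤ C.mu i z :=
  ord_pos_of_mem_van hz (div_ne_zero (C.ne i) (C.ne _)) ((C.van_iff (C.idx_spec z) i).2 h)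

theorem of_mu_ne {i : ι} {z : V.X} (h : C.mu i z ≠ 0) : coheight z = 1 ∧ z ∉ C.U i := by
  refine ⟨(IsWD.ord (V := 𝐖) (div_ne_zero (C.ne i) (C.ne _))).codim z h, fun hz => h ?_⟩
  have h1 := C.ord_eq i hz
  rw [div_self (C.ne i), ord_one] at h1
  omega

theorem fin (i : ι) : {z : V.X | coheight z = 1 ∧ z ∉ C.U i}.Finite :=
  finite_compl (C.U i) ⟨_, C.gen i⟩

/-- functions regular along a union of connected components of a hyperplane section -/
theorem no_fun (i : ι) {D : Set V.X} (hD : ∀ z ∈ D, coheight z = 1 ∧ z ∉ C.U i)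
    (hne : D.Nonempty)
    (hcl : ∀ z ∈ D, ∀ y, z ⤳ y → ∀ z', z' ⤳ y → coheight z' = 1 → z' ∉ C.U i → z' ∈ D)
    {f : V.FnField} (hf : ∀ z ∈ D, ∀ y, z ⤳ y → f ∈ loc y) :
    ∃ c : k, f = algebraMap k V.FnField c := by
  classical
  by_contra hcon
  push Not at hcon
  have hfin : D.Finite := (C.fin i).subset hD
  choose! c hc using fun z (hz : z ∈ D) => const_on (hD z hz).1 (hf z hz)
  set F : V.FnField := ∏ z ∈ hfin.toFinset, (f - algebraMap k V.FnField (c z)) with hF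
  have hF0 : F ≠ 0 := Finset.prod_ne_zero_iff.2 fun z _ => sub_ne_zero.2 (hcon _)
  have hFl : ∀ z ∈ D, ∀ y, z ⤳ y → F ∈ loc y := fun z hz y hy =>
    Subring.prod_mem _ fun w _ => sub_mem (hf z hz y hy) (const_mem_loc 𝐖 y _)
  have hFv : ∀ z ∈ D, 1 ≤ Scheme.ord (X := V.X) F z := by
    intro z hz
    refine ord_pos_of_mem_van (hD z hz).1 hF0 ?_
    rw [hF, ← Finset.prod_erase_mul _ _ (hfin.mem_toFinset.2 hz)]
    exact mul_mem_van (Subring.prod_mem _ fun w _ =>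
      sub_mem (hf z hz z specializes_rfl) (const_mem_loc 𝐖 z _)) (hc z hz)
  obtain ⟨ξ, hξ, hmin⟩ := D.exists_min_image
    (fun z => (Scheme.ord (X := V.X) F z : ℚ) / (C.mu i z : ℚ)) hfin hne
  obtain ⟨ν, hν⟩ := Int.eq_ofNat_of_zero_le (zero_le_one.trans (hFv ξ hξ))
  obtain ⟨a, ha⟩ := Int.eq_ofNat_of_zero_le (zero_le_one.trans (C.mu_pos (hD ξ hξ).1 (hD ξ hξ).2))
  have hν0 : ν ≠ 0 := by
    have := hFv ξ hξ
    omega
  have hord : ∀ l z, z ∈ C.U l → Scheme.ord (X := V.X) (F ^ a * (C.t l / C.t i) ^ ν) z =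
      a * Scheme.ord (X := V.X) F z - ν * C.mu i z := by
    intro l z hz
    rw [Scheme.ord_mul (pow_ne_zero _ hF0) (pow_ne_zero _ (div_ne_zero (C.ne l) (C.ne i))),
      ord_pow, ord_pow, C.ord_eq i hz]
    ring
  have hG : ∀ l y, ξ ⤳ y → y ∈ C.U l → F ^ a * (C.t l / C.t i) ^ ν ∈ loc y := by
    intro l y hy hyl
    refine mem_loc_iff.2 fun z hz => ?_
    rw [hord l z (hz.mem_open (C.U l).isOpen hyl)]
    by_cases h0 : C.mu i z = 0
    · rw [h0, mul_zero, sub_zero]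
      exact mul_nonneg (Nat.cast_nonneg _) (ord_nonneg_of_mem_loc hz (hFl ξ hξ y hy))
    · obtain ⟨h1, h2⟩ := C.of_mu_ne h0
      have h3 := hmin z (hcl ξ hξ y hy z hz h1 h2)
      have h4 : (0 : ℚ) < C.mu i z := by exact_mod_cast C.mu_pos h1 h2
      have h5 : (0 : ℚ) < C.mu i ξ := by exact_mod_cast C.mu_pos (hD ξ hξ).1 (hD ξ hξ).2
      rw [div_le_div_iff₀ h5 h4, hν, ha] at h3
      have h6 : (ν : ℤ) * C.mu i z ≤ Scheme.ord (X := V.X) F z * (a : ℤ) := by exact_mod_cast h3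
      linarith
  have hsplit : ∀ l, F ^ a * (C.t (C.idx ξ) / C.t i) ^ ν =
      F ^ a * (C.t l / C.t i) ^ ν * (C.t (C.idx ξ) / C.t l) ^ ν := by
    intro l
    have := C.ne l
    rw [mul_assoc, ← mul_pow]
    congr 2
    field_simp
  have hg : ∀ y, ξ ⤳ y → F ^ a * (C.t (C.idx ξ) / C.t i) ^ ν ∈ loc y := by
    intro y hy
    obtain ⟨l, hl⟩ := C.cover y
    rw [hsplit l]
    exact mul_mem (hG l y hy hl) (pow_mem (C.mem hl _) _)
  obtain ⟨b, hb⟩ := const_on (hD ξ hξ).1 hg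
  obtain ⟨y, hy, hyU⟩ := exists_out (hD ξ hξ).1 (C.aff (C.idx ξ))
  obtain ⟨l, hl⟩ := C.cover y
  have h1 : F ^ a * (C.t (C.idx ξ) / C.t i) ^ ν ∈ van y := by
    obtain ⟨m, rfl⟩ := Nat.exists_eq_succ_of_ne_zero hν0
    rw [hsplit l, pow_succ (C.t (C.idx ξ) / C.t l)]
    exact mul_mem_van (hG l y hy hl)
      (mul_mem_van (pow_mem (C.mem hl _) _) ((C.van_iff hl _).2 hyU))
  have h2 := van_spec hy (sub_mem (hg y hy) (const_mem_loc 𝐖 y b)) hb
  have h3 : b = 0 := by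
    refine const_van (y := y) ?_
    have h4 := add_mem_van h1 (mul_mem_van (neg_mem (one_mem (loc y))) h2)
    convert h4 using 1
    ring
  rw [h3, map_zero, sub_zero] at hb
  have h4 := ord_pos_of_mem_van (hD ξ hξ).1 (mul_ne_zero (pow_ne_zero _ hF0)
    (pow_ne_zero _ (div_ne_zero (C.ne _) (C.ne i)))) hb
  rw [hord _ ξ (C.idx_spec ξ), hν, ha] at h4
  linarith

include C in
/-- **any two closed points are joined by a chain of curves** -/
theorem conn (hH : Cous (W := 𝐖) 0 ≤ Bd 0) (G : V.X → Prop)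
    (hG : ∀ ξ, coheight ξ = 1 → ∀ x y, ξ ⤳ x → x ≠ ξ → ξ ⤳ y → y ≠ ξ → G x → G y)
    {x y : V.X} (hx : IsClosed ({x} : Set V.X)) (hy : IsClosed ({y} : Set V.X)) (h : G x) :
    G y := by
  classical
  have i : ι := C.idx x
  let Col : V.X → Prop := fun z => ∃ y, z ⤳ y ∧ y ≠ z ∧ G y
  have hA : ∀ p : V.X, IsClosed ({p} : Set V.X) →
      ∃ z, coheight z = 1 ∧ z ∉ C.U i ∧ (G p ↔ Col z) := by
    intro p hp
    obtain ⟨ξ, hξ, h1, h2⟩ := exists_curve hp
    obtain ⟨q, hq, hqU⟩ := exists_out hξ (C.aff i)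
    by_cases hqξ : q = ξ
    · subst hqξ
      exact ⟨q, hξ, hqU, fun h => ⟨p, h1, h2, h⟩, fun ⟨w, a, b, c⟩ => hG q hξ w p a b h1 h2 c⟩
    · obtain ⟨z, hz, hz1, hzU⟩ := exists_prime_out (W := 𝐖) (C.aff i) ⟨⟨_, C.gen i⟩⟩ hqU
      have h3 : q ≠ z := fun h => hqξ (by
        subst h
        exact (eq_of_specializes_of_coheight hq hξ hz1).symm)
      exact ⟨z, hz1, hzU, fun h => ⟨q, hz, h3, hG ξ hξ p q h1 h2 hq hqξ h⟩,
        fun ⟨w, a, b, c⟩ => hG ξ hξ q p hq hqξ h1 h2 (hG z hz1 w q a b hz h3 c)⟩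
  obtain ⟨z₁, a₁, b₁, c₁⟩ := hA x hx
  obtain ⟨z₂, a₂, b₂, c₂⟩ := hA y hy
  rw [c₂]
  by_contra hz₂
  let D₁ : Set V.X := {z | (coheight z = 1 ∧ z ∉ C.U i) ∧ Col z}
  let D₂ : Set V.X := {z | (coheight z = 1 ∧ z ∉ C.U i) ∧ ¬ Col z}
  have hcl : ∀ z ∈ D₁, ∀ y, z ⤳ y → ∀ z', z' ⤳ y → coheight z' = 1 → z' ∉ C.U i → z' ∈ D₁ := by
    intro z hz w hw z' hw' h1 h2
    refine ⟨⟨h1, h2⟩, ?_⟩
    by_cases h3 : z' = z
    · rw [h3]; exact hz.2
    · obtain ⟨p, a, b, c⟩ := hz.2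
      refine ⟨w, hw', fun h4 => h3 ?_, hG z hz.1.1 p w a b hw (fun h4 => h3 ?_) c⟩
      · subst h4
        exact (eq_of_specializes_of_coheight hw hz.1.1 h1).symm
      · subst h4
        exact eq_of_specializes_of_coheight hw' h1 hz.1.1
  have hdis : ∀ z ∈ D₁, ∀ y, z ⤳ y → ¬ ∃ z' ∈ D₂, z' ⤳ y := by
    rintro z hz w hw ⟨z', hz', hw'⟩
    exact hz'.2 (hcl z hz w hw z' hw' hz'.1.1 hz'.1.2).2
  let τ : V.FnField := C.t (C.idx z₂) / C.t i
  let φ : V.X → V.FnField := fun w => if ∃ z' ∈ D₂, z' ⤳ w then τ else 0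
  have hφ : φ ∈ Cous (W := 𝐖) 0 := by
    intro p
    by_cases hp : ∃ z' ∈ D₂, z' ⤳ p
    · filter_upwards [ev_avoid ((C.fin i).subset fun z (hz : z ∈ D₁) => hz.1) (x := p)
        fun z hz h => hdis z hz p h hp] with w hw
      by_cases hw' : ∃ z' ∈ D₂, z' ⤳ w
      · simp only [φ, if_pos hp, if_pos hw', sub_self, zero_mem]
      · have h1 : w ∈ C.U i := by
          by_contra h2
          obtain ⟨z, hz, hz1, hzU⟩ := exists_prime_out (W := 𝐖) (C.aff i) ⟨⟨_, C.gen i⟩⟩ h2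
          by_cases h3 : Col z
          · exact hw z ⟨⟨hz1, hzU⟩, h3⟩ hz
          · exact hw' ⟨z, ⟨⟨hz1, hzU⟩, h3⟩, hz⟩
        simp only [φ, if_pos hp, if_neg hw', zero_sub]
        exact neg_mem (sO_zero.2 (C.mem h1 _))
    · filter_upwards [ev_avoid ((C.fin i).subset fun z (hz : z ∈ D₂) => hz.1) (x := p)
        fun z hz h => hp ⟨z, hz, h⟩] with w hw
      have hw' : ¬ ∃ z' ∈ D₂, z' ⤳ w := fun ⟨z, hz, h⟩ => hw z hz h
      simp only [φ, if_neg hp, if_neg hw', sub_self, zero_mem]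
  obtain ⟨f, hf⟩ := hH hφ
  obtain ⟨c, rfl⟩ := C.no_fun i (D := D₁) (fun z hz => hz.1) ⟨z₁, ⟨a₁, b₁⟩, c₁.1 h⟩ hcl (f := f)
    fun z hz w hw => by
      have h1 := sO_zero.1 (hf w)
      simp only [φ, if_neg (hdis z hz w hw), zero_sub] at h1
      exact neg_mem_iff.1 h1
  have h1 := sO_zero.1 (hf z₂)
  simp only [φ, if_pos (show ∃ z' ∈ D₂, z' ⤳ z₂ from ⟨z₂, ⟨⟨a₂, b₂⟩, hz₂⟩, specializes_rfl⟩)] at h1
  have h2 : τ ∈ loc z₂ := by
    have := add_mem h1 (const_mem_loc 𝐖 z₂ c)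
    rwa [sub_add_cancel] at this
  have h3 := mul_mem_van h2 ((C.van_iff (C.idx_spec z₂) i).2 b₂)
  apply one_notMem_van z₂
  convert h3 using 1
  have := C.ne i
  have := C.ne (C.idx z₂)
  simp only [τ]
  field_simp

end Charts

end

end Crest.Agent.N265.Div
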