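import Mathlib
import Crest.Agent.N265.Div.Conn
import Crest.Agent.R013.Div6_280

/-!
# Row 265, divisibility, part 2 (helper1): torsion implies Bloch

* `cls_eq_of_curve` : if differences of closed points are killed by `N ≠ 0`, two points of one
  curve have the same class (`Pic⁰` of a curve is divisible);
* `cous_of_smV` : `H¹(O) = 0` for the Čech complex of a model solves all Cousin problems;
* `bloch_of_tors`.
-/

set_option autoImplicit false
set_option linter.unusedSectionVars false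
set_option linter.style.haveILetI false

open AlgebraicGeometry CategoryTheory Order TopologicalSpace Topology Filter
open Crest.AlgGeometry.Prelude
open Crest.Agent.R274 Crest.Agent.R274.Br179 Crest.Agent.R274.Brg883 Crest.Agent.R274.Defs_781
open Crest.Agent.R013.RR7_948 Crest.Agent.R013.RR9_948 Crest.Agent.R013.RR11_948
open Crest.Agent.N265.Br

namespace Crest.Agent.N265.Div

universe u

noncomputable section

variable {k : Type u} [Field k] [IsAlgClosed k] [CharZero k]

theorem sum_sub_const {α A : Type*} [AddCommGroup A] (g : α → A) (E : α →₀ ℤ)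
    (hE : (E.sum fun _ n => n) = 0) (c : A) :
    (E.sum fun R m => m • g R) = E.sum fun R m => m • (g R - c) := by
  simp only [Finsupp.sum, smul_sub, Finset.sum_sub_distrib, ← Finset.sum_smul]
  rw [show ∑ R ∈ E.support, E R = 0 from hE, zero_smul, sub_zero]

section Curve

variable {V : SmPr k 2}

local notation "𝐖" => SmPr.toIntegralKScheme V

theorem isClosed_of_spec {ξ y : V.X} (hξ : coheight ξ = 1) (h : ξ ⤳ y) (hne : y ≠ ξ) :
    IsClosed ({y} : Set V.X) :=
  Crest.Agent.R274.Int2_375.isClosed_singleton_iff.2 fun _ hz => eq_of_spec hξ h hne hz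

theorem mk_mapDomain {α : Type*} (g : α → V.X) (E : α →₀ ℤ) :
    (QuotientAddGroup.mk (E.mapDomain g) : CH0 V) = E.sum fun Q m => m • cls V (g Q) := by
  rw [Finsupp.mapDomain, Finsupp.sum, Finsupp.sum, ← QuotientAddGroup.mk'_apply, map_sum]
  refine Finset.sum_congr rfl fun Q _ => ?_
  rw [cls, ← QuotientAddGroup.mk'_apply, ← map_zsmul, Finsupp.smul_single, smul_eq_mul, mul_one]

/-- two points of one curve -/
theorem cls_eq_of_curve {N : ℤ} (hN : N ≠ 0)
    (hT : ∀ x y : V.X, IsClosed ({x} : Set V.X) → IsClosed ({y} : Set V.X) →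
      N • (cls V x - cls V y) = 0)
    {ξ : V.X} (hξ : coheight ξ = 1) {x y : V.X} (hx : ξ ⤳ x) (hx' : x ≠ ξ) (hy : ξ ⤳ y)
    (hy' : y ≠ ξ) : cls V x = cls V y := by
  obtain ⟨_, _, _, _⟩ := exists_ctx hξ
  obtain ⟨P, hP⟩ := exists_cen hx hx'
  obtain ⟨Q, hQ⟩ := exists_cen hy hy'
  have hD : degD (Finsupp.single P (1 : ℤ) - Finsupp.single Q 1) = 0 := by
    rw [degD_sub, degD_single, degD_single, Crest.Agent.R013.CE5_280.degP_eq_one,
      Crest.Agent.R013.CE5_280.degP_eq_one, sub_self]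
  obtain ⟨E, f, -, hE, h⟩ :=
    Crest.Agent.R013.Div6_280.exists_div (Int.natAbs_pos.2 hN) hD
  have h1 := congrArg (fun D => (QuotientAddGroup.mk (Finsupp.mapDomain ctr D) : CH0 V)) h
  have h2 : (QuotientAddGroup.mk (Finsupp.mapDomain ctr (divf (k := k) f)) : CH0 V) = 0 :=
    (QuotientAddGroup.eq_zero_iff _).2 (cyc_mem_Rat hξ f)
  have h3 : N • (QuotientAddGroup.mk (Finsupp.mapDomain ctr E) : CH0 V) = 0 := by
    rw [Crest.Agent.R013.CE5_280.degD_eq_sum] at hE
    have h4 : (E.sum fun R m => m • cls V (ctr R)) =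
        E.sum fun R m => m • (cls V (ctr R) - cls V x) := sum_sub_const _ _ hE _
    rw [mk_mapDomain, h4, Finsupp.sum, Finset.smul_sum]
    refine Finset.sum_eq_zero fun R _ => ?_
    rw [smul_comm, hT _ _ (isClosed_of_spec hξ (cen_ctr R).1 (cen_ctr R).2.1)
      (isClosed_of_spec hξ hx hx'), smul_zero]
  have h4 : N.natAbs • (QuotientAddGroup.mk (Finsupp.mapDomain ctr E) : CH0 V) = 0 := by
    rw [← natCast_zsmul]
    rcases Int.natAbs_eq N with h5 | h5
    · rw [← h5, h3]
    · rw [← neg_eq_iff_eq_neg.2 h5, neg_smul, h3, neg_zero]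
  simp only [Finsupp.mapDomain_sub, Finsupp.mapDomain_add, Finsupp.mapDomain_smul,
    Finsupp.mapDomain_single, QuotientAddGroup.mk_add, QuotientAddGroup.mk_sub,
    QuotientAddGroup.mk_nsmul, h2, h4, add_zero, ctr_eq hP, ctr_eq hQ] at h1
  exact sub_eq_zero.1 h1

end Curve

theorem of_H1 {F : Type u} [AddCommGroup F] [Module k F] (M : Fam k F 2)
    (h : Subsingleton (M.H 1)) (a : Fin 3 → F) (h1 : a 1 - a 0 ∈ M.M {0, 1})
    (h2 : a 2 - a 0 ∈ M.M {0, 2}) (h3 : a 2 - a 1 ∈ M.M {1, 2}) :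
    ∃ f, ∀ i, a i - f ∈ M.M {i} := by
  let c : TC F 2 := fun I => if I = {0, 1} then a 1 - a 0
    else if I = {0, 2} then a 2 - a 0 else if I = {1, 2} then a 2 - a 1 else 0
  have c0 : c {0, 1} = a 1 - a 0 := rfl
  have c1 : c {0, 2} = a 2 - a 0 := rfl
  have c2 : c {1, 2} = a 2 - a 1 := rfl
  have hc : c ∈ M.coch 1 := by
    intro I
    rcases fin3_cases I with rfl | rfl | rfl | rfl | rfl | rfl | rfl | rfl
    exacts [⟨fun h => absurd h (by decide), fun _ => rfl⟩,
      ⟨fun h => absurd h (by decide), fun _ => rfl⟩, ⟨fun h => absurd h (by decide), fun _ => rfl⟩,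
      ⟨fun h => absurd h (by decide), fun _ => rfl⟩, ⟨fun _ => h1, fun h => absurd rfl h⟩,
      ⟨fun _ => h2, fun h => absurd rfl h⟩, ⟨fun _ => h3, fun h => absurd rfl h⟩,
      ⟨fun h => absurd h (by decide), fun _ => rfl⟩]
  obtain ⟨b, hb⟩ := (M.cech.H_subsingleton_iff 1).1 h ⟨c, hc⟩ (coch_ext M 2 fun I hI => by
    change D k F 2 c I = 0
    rcases fin3_cases I with rfl | rfl | rfl | rfl | rfl | rfl | rfl | rfl
    iterate 7 exact absurd hI (by decide)
    rw [D012, c0, c1, c2]; abel)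
  have e0 : b.1 {1} - b.1 {0} = a 1 - a 0 := by
    rw [← D01 (k := k)]
    exact congrFun (congrArg Subtype.val hb) {0, 1}
  have e1 : b.1 {2} - b.1 {0} = a 2 - a 0 := by
    rw [← D02 (k := k)]
    exact congrFun (congrArg Subtype.val hb) {0, 2}
  refine ⟨a 0 - b.1 {0}, fun i => ?_⟩
  have hi : b.1 {i} ∈ M.M {i} := (b.2 _).1 (Finset.card_singleton i)
  convert hi using 1
  fin_cases i
  · simp
  · rw [← sub_eq_zero, ← sub_eq_zero.2 e0.symm]; simp; abel
  · rw [← sub_eq_zero, ← sub_eq_zero.2 e1.symm]; simp; abel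

variable {V : SmoothProjectiveVariety k 2} (M : Model V)

theorem cous_of_smV (h : Subsingleton (((smV M).fam 0).H 1)) :
    Cous (W := (ofSPV V).toIntegralKScheme) 0 ≤ Bd 0 := by
  intro φ hφ
  choose a ha using fun i : Fin 3 => aff_lift (W := (ofSPV V).toIntegralKScheme)
    (M.affine (Finset.singleton_nonempty i)) (M.nonempty _) φ
    fun x _ => ⟨φ x, (hφ x).mono fun y hy => sO_zero.1 hy⟩
  have key : ∀ i j : Fin 3, a j - a i ∈ ((smV M).fam 0).M {i, j} := fun i j =>
    (mem_fam M).2 fun y hy => by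
      have := sub_mem (ha i y (hy i (by simp))) (ha j y (hy j (by simp)))
      rwa [sub_sub_sub_cancel_left] at this
  obtain ⟨f, hf⟩ := of_H1 _ h a (key 0 1) (key 0 2) (key 1 2)
  refine ⟨f, fun y => sO_zero.2 ?_⟩
  obtain ⟨i, hi⟩ := M.cover y
  have := add_mem (ha i y hi) ((mem_fam M).1 (hf i) y (by simpa using hi))
  rwa [sub_add_sub_cancel] at this

/-- the charts of a model -/
def charts : Charts (ofSPV V) (Fin 3) where
  U i := M.U {i}
  t := M.t
  aff i := M.affine (Finset.singleton_nonempty i)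
  gen _ := M.generic_mem _
  ne := M.t_ne
  cover := M.cover
  mem hx j := M.ratio_mem hx j
  van_iff hx j := M.ratio_van hx j

/-- **torsion implies zero** -/
theorem cls_eq_of_tors (h : Subsingleton (((smV M).fam 0).H 1)) {N : ℤ} (hN : N ≠ 0)
    (hT : ∀ x y : V.X, IsClosed ({x} : Set V.X) → IsClosed ({y} : Set V.X) →
      N • (cls (ofSPV V) x - cls (ofSPV V) y) = 0)
    {x y : V.X} (hx : IsClosed ({x} : Set V.X)) (hy : IsClosed ({y} : Set V.X)) :
    cls (ofSPV V) x = cls (ofSPV V) y :=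
  (charts M).conn (cous_of_smV M h) (fun p => cls (ofSPV V) x = cls (ofSPV V) p)
    (fun _ hξ _ _ h1 h2 h3 h4 h5 => h5.trans (cls_eq_of_curve hN hT hξ h1 h2 h3 h4)) hx hy rfl

/-- the torsion form of Bloch's conjecture -/
def Tors : Prop := ∀ (V : SmoothProjectiveVariety ℂ 2) (M : Model V),
  Subsingleton (((smV M).fam 0).H 1) → Subsingleton (((smV M).fam 0).H 2) →
    ∃ N : ℤ, N ≠ 0 ∧ ∀ x y : V.X, IsClosed ({x} : Set V.X) → IsClosed ({y} : Set V.X) →
      N • (cls (ofSPV V) x - cls (ofSPV V) y) = 0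

/-- **DIV** -/
theorem bloch_of_tors (H : Tors) : Bloch := fun V M h1 h2 _ _ hx hy =>
  let ⟨_, hN, hT⟩ := H V M h1 h2
  cls_eq_of_tors M h1 hN hT hx hy

end

end Crest.Agent.N265.Div
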